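import Vale.Agent.Lib.P047T.Defs

namespace Vale.Agent.P047T

open Vale.Agent.P047 Finset

variable {ι κ : Type} [Fintype ι] [DecidableEq ι] [Fintype κ] [DecidableEq κ]

/-- U2a. Independence of the blocks.  (Curry: `(ι × κ → Bool) ≃ (ι → κ → Bool)`, `Equiv.curry`, then
`Finset.prod_univ_sum` with `Fintype.piFinset_univ`.) -/
theorem sum_prod_blocks (h : ι → (κ → Bool) → ℝ) :
    ∑ y : ι × κ → Bool, ∏ i, h i (fun k => y (i, k)) = ∏ i, ∑ z : κ → Bool, h i z := by
  rw [Finset.prod_univ_sum, Fintype.piFinset_univ]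
  exact Fintype.sum_equiv (Equiv.curry ι κ Bool) _ _ (fun y => rfl)

/-- U2b. A character of the big cube is the product of the characters of its slices. -/
theorem chi_eq_prod_slices (U : Finset (ι × κ)) (y : ι × κ → Bool) :
    ∏ p ∈ U, sgn (y p) = ∏ i, ∏ k ∈ slice U i, sgn (y (i, k)) := by
  have h1 : ∏ p ∈ U, sgn (y p) = ∏ p : ι × κ, (if p ∈ U then sgn (y p) else 1) := by
    rw [Finset.prod_ite_mem, Finset.univ_inter]
  rw [h1, Fintype.prod_prod_type]
  refine Finset.prod_congr rfl fun i _ => ?_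
  unfold P047T.slice
  rw [Finset.prod_filter]

/-- U2c. -/
theorem card_eq_sum_slices (U : Finset (ι × κ)) :
    U.card = ∑ i ∈ supp U, (slice U i).card := by
  unfold supp
  rw [Finset.card_eq_sum_card_image Prod.fst U]
  refine Finset.sum_congr rfl fun i _ => ?_
  refine Finset.card_bij (fun p _ => p.2) ?_ ?_ ?_
  · rintro ⟨a, b⟩ hp
    simp only [Finset.mem_filter] at hp
    obtain ⟨hU, rfl⟩ := hp
    simp [P047T.slice, hU]
  · rintro ⟨a, b⟩ hp ⟨a', b'⟩ hp' hbb
    simp only [Finset.mem_filter] at hp hp'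
    obtain ⟨_, rfl⟩ := hp
    obtain ⟨_, rfl⟩ := hp'
    simp only at hbb
    rw [hbb]
  · intro k hk
    simp only [P047T.slice, Finset.mem_filter, Finset.mem_univ, true_and] at hk
    exact ⟨(i, k), by simp [hk], rfl⟩

/-- U2d. -/
theorem slice_eq_empty_iff (U : Finset (ι × κ)) (i : ι) : slice U i = ∅ ↔ i ∉ supp U := by
  unfold P047T.slice supp
  rw [Finset.filter_eq_empty_iff]
  simp only [Finset.mem_univ, true_implies, Finset.mem_image, Prod.exists, exists_and_right,
    exists_eq_right, not_exists]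

end Vale.Agent.P047T
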