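import Vale.Agent.Lib.P047T.Inversion
import Vale.Agent.Lib.P047T.ProdSum

namespace Vale.Agent.P047T

open Vale.Agent.P047 Finset

variable {ι κ : Type} [Fintype ι] [DecidableEq ι] [Fintype κ] [DecidableEq κ]

/-- U3a. Fourier coefficients of a block composition, general form.
Expand `sgn (f (..))` by `inversion`, write `χ_U` by `chi_eq_prod_slices`, merge the two products into
`∏_i (if i ∈ S then sgn (g y_i) else 1) * χ_{slice U i}(y_i)`, use `sum_prod_blocks`, and evaluate each
factor: it is `2^|κ| fhatG g (slice U i)` if `i ∈ S` and `char_sum` otherwise;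
`card (ι × κ) = card ι * card κ`. -/
theorem fhatG_comp_general (f : (ι → Bool) → Bool) (g : (κ → Bool) → Bool) (U : Finset (ι × κ)) :
    fhatG (comp f g) U = ∑ S : Finset ι, fhatG f S *
      ∏ i : ι, (if i ∈ S then fhatG g (slice U i) else if slice U i = ∅ then 1 else 0) := by
  set h : Finset ι → ι → (κ → Bool) → ℝ := fun S i z =>
    (if i ∈ S then sgn (g z) else 1) * ∏ k ∈ slice U i, sgn (z k) with hh
  have hfac : ∀ (S : Finset ι) (i : ι), ∑ z : κ → Bool, h S i z =
      2 ^ Fintype.card κ *
        (if i ∈ S then fhatG g (slice U i) else if slice U i = ∅ then 1 else 0) := by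
    intro S i
    by_cases hi : i ∈ S
    · simp only [hh, hi, if_true]
      unfold fhatG
      field_simp
    · simp only [hh, hi, if_false, one_mul]
      rw [char_sum]
      split_ifs <;> simp
  have hterm : ∀ y : ι × κ → Bool, sgn (comp f g y) * ∏ p ∈ U, sgn (y p) =
      ∑ S : Finset ι, fhatG f S * ∏ i, h S i (fun k => y (i, k)) := by
    intro y
    rw [chi_eq_prod_slices, comp, inversion f, Finset.sum_mul]
    refine Finset.sum_congr rfl (fun S _ => ?_)
    simp only [hh]
    rw [Finset.prod_mul_distrib, mul_assoc]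
    congr 2
    rw [Finset.prod_ite_mem, Finset.univ_inter]
  have key : ∑ y : ι × κ → Bool, sgn (comp f g y) * ∏ p ∈ U, sgn (y p) =
      2 ^ Fintype.card (ι × κ) * ∑ S : Finset ι, fhatG f S *
      ∏ i : ι, (if i ∈ S then fhatG g (slice U i) else if slice U i = ∅ then 1 else 0) := by
    calc ∑ y : ι × κ → Bool, sgn (comp f g y) * ∏ p ∈ U, sgn (y p)
        = ∑ y : ι × κ → Bool, ∑ S : Finset ι, fhatG f S * ∏ i, h S i (fun k => y (i, k)) :=
          Finset.sum_congr rfl (fun y _ => hterm y)
      _ = ∑ S : Finset ι, fhatG f S * ∑ y : ι × κ → Bool, ∏ i, h S i (fun k => y (i, k)) := by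
          rw [Finset.sum_comm]
          refine Finset.sum_congr rfl (fun S _ => ?_)
          rw [Finset.mul_sum]
      _ = ∑ S : Finset ι, fhatG f S * ∏ i, ∑ z : κ → Bool, h S i z := by
          refine Finset.sum_congr rfl (fun S _ => ?_)
          rw [sum_prod_blocks (h S)]
      _ = ∑ S : Finset ι, fhatG f S * (2 ^ Fintype.card (ι × κ) *
            ∏ i : ι, (if i ∈ S then fhatG g (slice U i)
              else if slice U i = ∅ then 1 else 0)) := by
          refine Finset.sum_congr rfl (fun S _ => ?_)
          congr 1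
          rw [Finset.prod_congr rfl (fun i _ => hfac S i), Finset.prod_mul_distrib,
            Finset.prod_const, Finset.card_univ, Fintype.card_prod, ← pow_mul, mul_comm
              (Fintype.card κ)]
      _ = _ := by
          rw [Finset.mul_sum]
          refine Finset.sum_congr rfl (fun S _ => ?_)
          ring
  rw [fhatG, key]
  field_simp

/-- U3b. For a balanced inner function only `S = supp U` survives. -/
theorem fhatG_comp (f : (ι → Bool) → Bool) (g : (κ → Bool) → Bool) (hg : fhatG g ∅ = 0)
    (U : Finset (ι × κ)) :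
    fhatG (comp f g) U = fhatG f (supp U) * ∏ i ∈ supp U, fhatG g (slice U i) := by
  rw [fhatG_comp_general, Finset.sum_eq_single (supp U)]
  · congr 1
    rw [← Finset.prod_subset (Finset.subset_univ (supp U))]
    · refine Finset.prod_congr rfl (fun i hi => ?_)
      rw [if_pos hi]
    · intro i _ hi
      rw [if_neg hi, if_pos ((slice_eq_empty_iff U i).2 hi)]
  · intro S _ hS
    have : ∃ i, (i ∈ S ∧ i ∉ supp U) ∨ (i ∉ S ∧ i ∈ supp U) := by
      by_contra hcon
      apply hS
      ext i
      constructor
      · intro hi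
        by_contra h2
        exact hcon ⟨i, Or.inl ⟨hi, h2⟩⟩
      · intro hi
        by_contra h2
        exact hcon ⟨i, Or.inr ⟨h2, hi⟩⟩
    obtain ⟨i, hi⟩ := this
    have hz : (∏ i : ι, (if i ∈ S then fhatG g (slice U i)
        else if slice U i = ∅ then 1 else 0)) = 0 := by
      refine Finset.prod_eq_zero (Finset.mem_univ i) ?_
      rcases hi with ⟨h1, h2⟩ | ⟨h1, h2⟩
      · rw [if_pos h1, (slice_eq_empty_iff U i).2 h2, hg]
      · rw [if_neg h1, if_neg]
        intro h3
        exact ((slice_eq_empty_iff U i).1 h3) h2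
    rw [hz, mul_zero]
  · intro h
    exact absurd (Finset.mem_univ _) h

end Vale.Agent.P047T
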