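import Vale.Agent.Lib.P047T.Coeff

namespace Vale.Agent.P047T

open Vale.Agent.P047 Finset

variable {ι κ : Type} [Fintype ι] [DecidableEq ι] [Fintype κ] [DecidableEq κ]

/-- U4. Level one is multiplicative.  (`fhatG_comp` with `U = {(i,k)}`: `supp = {i}`, `slice = {k}`;
`Fintype.sum_prod_type`, `Finset.sum_mul_sum`.) -/
theorem levelOneG_comp (f : (ι → Bool) → Bool) (g : (κ → Bool) → Bool) (hg : fhatG g ∅ = 0) :
    levelOneG (comp f g) = levelOneG f * levelOneG g := by
  unfold levelOneG
  rw [Fintype.sum_prod_type, Finset.sum_mul_sum]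
  refine Finset.sum_congr rfl (fun i _ => Finset.sum_congr rfl (fun k _ => ?_))
  rw [fhatG_comp f g hg]
  have h1 : supp ({(i, k)} : Finset (ι × κ)) = {i} := by
    simp [supp]
  have h2 : slice ({(i, k)} : Finset (ι × κ)) i = {k} := by
    ext k'
    simp [slice]
  rw [h1, Finset.prod_singleton, h2]

/-- U5. Degrees multiply.  (If `a * b < |U| = ∑_{i ∈ supp U} |slice U i|` then `a < |supp U|` or some
slice has more than `b` elements; use `fhatG_comp`, `card_eq_sum_slices`, `Finset.prod_eq_zero`.) -/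
theorem degLEG_comp (f : (ι → Bool) → Bool) (g : (κ → Bool) → Bool) (hg : fhatG g ∅ = 0)
    (a b : ℕ) (hf : DegLEG f a) (hgd : DegLEG g b) : DegLEG (comp f g) (a * b) := by
  intro U hU
  rw [fhatG_comp f g hg]
  by_cases h1 : a < (supp U).card
  · rw [hf _ h1, zero_mul]
  · by_cases h2 : ∃ i ∈ supp U, b < (slice U i).card
    · obtain ⟨i, hi, hb⟩ := h2
      rw [Finset.prod_eq_zero hi (hgd _ hb), mul_zero]
    · exfalso
      push Not at h1 h2
      have h3 : U.card ≤ (supp U).card * b := by
        rw [card_eq_sum_slices U]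
        calc ∑ i ∈ supp U, (slice U i).card ≤ ∑ _i ∈ supp U, b := Finset.sum_le_sum h2
          _ = (supp U).card * b := by rw [Finset.sum_const, smul_eq_mul]
      have h4 : (supp U).card * b ≤ a * b := Nat.mul_le_mul_right b h1
      omega

/-- U6. -/
theorem fhatG_comp_empty (f : (ι → Bool) → Bool) (g : (κ → Bool) → Bool) (hg : fhatG g ∅ = 0) :
    fhatG (comp f g) ∅ = fhatG f ∅ := by
  rw [fhatG_comp f g hg]
  simp [supp]

end Vale.Agent.P047T
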