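import Vale.Agent.Lib.P047.Defs

/-!
P047, tensor power trick: definitions over an arbitrary finite index type.
-/

namespace Vale.Agent.P047T

open Vale.Agent.P047 Finset

variable {ι κ : Type} [Fintype ι] [DecidableEq ι] [Fintype κ] [DecidableEq κ]

/-- Fourier coefficient over an arbitrary finite index type. -/
noncomputable def fhatG (f : (ι → Bool) → Bool) (S : Finset ι) : ℝ :=
  (∑ x : ι → Bool, sgn (f x) * ∏ i ∈ S, sgn (x i)) / 2 ^ Fintype.card ι

noncomputable def levelOneG (f : (ι → Bool) → Bool) : ℝ := ∑ i : ι, fhatG f {i}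

def DegLEG (f : (ι → Bool) → Bool) (d : ℕ) : Prop :=
  ∀ S : Finset ι, d < S.card → fhatG f S = 0

/-- Block composition `f(g(y_1), ..., g(y_m))` on disjoint blocks of variables. -/
def comp (f : (ι → Bool) → Bool) (g : (κ → Bool) → Bool) : (ι × κ → Bool) → Bool :=
  fun y => f (fun i => g (fun k => y (i, k)))

/-- The part of `U` in block `i`. -/
def slice (U : Finset (ι × κ)) (i : ι) : Finset κ := univ.filter (fun k => (i, k) ∈ U)

/-- The blocks met by `U`. -/
def supp (U : Finset (ι × κ)) : Finset ι := U.image Prod.fst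

/-- Renaming of the variables. -/
def reindex (e : ι ≃ κ) (f : (ι → Bool) → Bool) : (κ → Bool) → Bool :=
  fun y => f (fun i => y (e i))

/-- The dual function `x ↦ - f(-x)`. -/
def dual (f : (ι → Bool) → Bool) : (ι → Bool) → Bool :=
  fun x => !(f (fun i => !(x i)))

/-- The odd function `(x_0, x) ↦ x_0 f(x_0 x)`. -/
def oddize (f : (ι → Bool) → Bool) : (Option ι → Bool) → Bool :=
  fun y => if y none then f (fun i => y (some i)) else dual f (fun i => y (some i))

end Vale.Agent.P047T
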