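import Vale.Agent.Lib.P047T.Defs

namespace Vale.Agent.P047T

open Vale.Agent.P047 Finset

variable {ι κ : Type} [Fintype ι] [DecidableEq ι] [Fintype κ] [DecidableEq κ]

theorem char_sum (T : Finset κ) :
    ∑ z : κ → Bool, ∏ k ∈ T, sgn (z k) = if T = ∅ then (2 : ℝ) ^ Fintype.card κ else 0 := by
  have h1 : ∀ z : κ → Bool, ∏ k ∈ T, sgn (z k) = ∏ k, (if k ∈ T then sgn (z k) else 1) := by
    intro z
    rw [Finset.prod_ite_mem, Finset.univ_inter]
  simp only [h1]
  have h2 := (Finset.prod_univ_sum (fun _ : κ => (Finset.univ : Finset Bool))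
    (fun k b => if k ∈ T then sgn b else (1 : ℝ))).symm
  rw [Fintype.piFinset_univ] at h2
  rw [h2]
  have h3 : ∀ k : κ, ∑ b : Bool, (if k ∈ T then sgn b else (1 : ℝ)) = if k ∈ T then 0 else 2 := by
    intro k
    by_cases hk : k ∈ T
    · simp [hk, sgn]
    · simp [hk]
  simp only [h3]
  by_cases hT : T = ∅
  · subst hT
    simp
  · rw [if_neg hT]
    obtain ⟨k, hk⟩ := Finset.nonempty_iff_ne_empty.2 hT
    exact Finset.prod_eq_zero (Finset.mem_univ k) (by simp [hk])

theorem prod_one_add_sgn (x y : ι → Bool) :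
    ∏ i, (1 + sgn (y i) * sgn (x i)) = if y = x then (2 : ℝ) ^ Fintype.card ι else 0 := by
  by_cases h : y = x
  · subst h
    rw [if_pos rfl]
    have : ∀ i, (1 + sgn (y i) * sgn (y i)) = (2 : ℝ) := by
      intro i
      cases y i <;> simp [sgn] <;> norm_num
    simp only [this]
    simp
  · rw [if_neg h]
    obtain ⟨i, hi⟩ := Function.ne_iff.1 h
    apply Finset.prod_eq_zero (Finset.mem_univ i)
    cases hy : y i <;> cases hx : x i <;> simp_all [sgn]

theorem inversion (f : (ι → Bool) → Bool) (x : ι → Bool) :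
    sgn (f x) = ∑ S : Finset ι, fhatG f S * ∏ i ∈ S, sgn (x i) := by
  unfold fhatG
  have h1 : ∀ S : Finset ι, (∑ y : ι → Bool, sgn (f y) * ∏ i ∈ S, sgn (y i)) / 2 ^ Fintype.card ι
      * ∏ i ∈ S, sgn (x i)
      = ∑ y : ι → Bool, sgn (f y) / 2 ^ Fintype.card ι * ∏ i ∈ S, (sgn (y i) * sgn (x i)) := by
    intro S
    rw [Finset.sum_div, Finset.sum_mul]
    refine Finset.sum_congr rfl (fun y _ => ?_)
    rw [Finset.prod_mul_distrib]
    ring
  simp only [h1]
  rw [Finset.sum_comm]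
  have h2 : ∀ y : ι → Bool, ∑ S : Finset ι, sgn (f y) / 2 ^ Fintype.card ι
      * ∏ i ∈ S, (sgn (y i) * sgn (x i))
      = sgn (f y) / 2 ^ Fintype.card ι * (if y = x then (2 : ℝ) ^ Fintype.card ι else 0) := by
    intro y
    rw [← Finset.mul_sum, ← prod_one_add_sgn, Finset.prod_one_add, Finset.powerset_univ]
  simp only [h2]
  simp

end Vale.Agent.P047T
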