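import Mathlib

namespace Vale.Agent.P047T

theorem le_of_pow_le (a b C : ℝ) (ha : 0 ≤ a) (hb : 0 < b)
    (h : ∀ k : ℕ, a ^ (k + 1) ≤ C * b ^ (k + 1)) : a ≤ b := by
  by_contra hlt
  have hlt' : b < a := lt_of_not_ge hlt
  have hr : 1 < a / b := by rwa [one_lt_div hb]
  obtain ⟨N, hN⟩ := Filter.eventually_atTop.1
    ((tendsto_pow_atTop_atTop_of_one_lt hr).eventually_gt_atTop C)
  have h1 := hN (N + 1) (by omega)
  have h2 := h N
  rw [div_pow, lt_div_iff₀ (by positivity)] at h1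
  linarith

end Vale.Agent.P047T
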