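import Vale.Agent.Lib.P047T.OddDual

namespace Vale.Agent.P047T

open Vale.Agent.P047 Finset

variable {ι κ : Type} [Fintype ι] [DecidableEq ι] [Fintype κ] [DecidableEq κ]

/-- U9d. -/
theorem fhatG_oddize_empty (f : (ι → Bool) → Bool) : fhatG (oddize f) ∅ = 0 := by
  have h := fhatG_oddize_some f ∅
  rw [Finset.map_empty, fhatG_dual] at h
  rw [h]
  simp

/-- U9e.  (`Fintype.sum_option`; `{none} = insert none (∅.map _)`, `{some i} = {i}.map _`.) -/
theorem levelOneG_oddize (f : (ι → Bool) → Bool) :
    levelOneG (oddize f) = levelOneG f + fhatG f ∅ := by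
  unfold levelOneG
  rw [Fintype.sum_option]
  have h0 : fhatG (oddize f) {none} = fhatG f ∅ := by
    have h := fhatG_oddize_none f ∅
    rw [Finset.map_empty, fhatG_dual] at h
    have e : (insert none (∅ : Finset (Option ι))) = {none} := by simp
    rw [e] at h
    rw [h]
    simp
  have h1 : ∀ i : ι, fhatG (oddize f) {some i} = fhatG f {i} := by
    intro i
    have h := fhatG_oddize_some f {i}
    rw [Finset.map_singleton, fhatG_dual] at h
    simp only [Function.Embedding.some_apply] at h
    rw [h]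
    simp
  rw [h0, Finset.sum_congr rfl fun i _ => h1 i, add_comm]

/-- U9f. -/
theorem degLEG_oddize (f : (ι → Bool) → Bool) (d : ℕ) (h : DegLEG f d) :
    DegLEG (oddize f) (d + 1) := by
  intro T hT
  obtain ⟨S, ⟨rfl, hc⟩ | ⟨rfl, hc⟩⟩ := option_finset_cases T
  · rw [fhatG_oddize_some, fhatG_dual, h S (by omega)]
    simp
  · rw [fhatG_oddize_none, fhatG_dual, h S (by omega)]
    simp

/-- U10b. -/
theorem levelOneG_dual (f : (ι → Bool) → Bool) : levelOneG (dual f) = levelOneG f := by
  unfold levelOneG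
  refine Finset.sum_congr rfl fun i _ => ?_
  rw [fhatG_dual]
  simp

theorem fhatG_dual_empty (f : (ι → Bool) → Bool) : fhatG (dual f) ∅ = - fhatG f ∅ := by
  rw [fhatG_dual]
  simp

theorem degLEG_dual (f : (ι → Bool) → Bool) (d : ℕ) (h : DegLEG f d) : DegLEG (dual f) d := by
  intro S hS
  rw [fhatG_dual, h S hS, mul_zero]

end Vale.Agent.P047T
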