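import Vale.Agent.Lib.P047T.Defs

namespace Vale.Agent.P047T

open Vale.Agent.P047 Finset

variable {ι κ : Type} [Fintype ι] [DecidableEq ι] [Fintype κ] [DecidableEq κ]

theorem sgn_not4 (b : Bool) : sgn (!b) = - sgn b := by
  cases b <;> simp [sgn]

/-- U10. Coefficients of the dual function `-f(-x)`.  (Reindex the sum by `x ↦ !x`; `sgn (!b) = - sgn b`;
`Finset.prod_neg` style: `∏_{i ∈ S} (- sgn (x i)) = (-1)^|S| ∏ sgn (x i)`.) -/
theorem fhatG_dual (f : (ι → Bool) → Bool) (S : Finset ι) :
    fhatG (dual f) S = (-1) ^ (S.card + 1) * fhatG f S := by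
  unfold fhatG dual
  rw [← mul_div_assoc, Finset.mul_sum]
  congr 1
  let e : (ι → Bool) ≃ (ι → Bool) :=
    ⟨fun x i => !(x i), fun x i => !(x i), fun x => by funext i; simp, fun x => by funext i; simp⟩
  rw [← Equiv.sum_comp e]
  refine Finset.sum_congr rfl fun x _ => ?_
  have h1 : (fun i => !(e x i)) = x := by funext i; simp [e]
  have h2 : ∏ i ∈ S, sgn (e x i) = (-1) ^ S.card * ∏ i ∈ S, sgn (x i) := by
    have : ∀ i ∈ S, sgn (e x i) = (-1) * sgn (x i) := by
      intro i _
      simp [e, sgn_not4]
    rw [Finset.prod_congr rfl this, Finset.prod_mul_distrib, Finset.prod_const]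
  rw [h1, h2, sgn_not4]
  ring

/-- splitting the cube over `Option ι` -/
theorem sum_option_cube (F : (Option ι → Bool) → ℝ) :
    ∑ y : Option ι → Bool, F y
      = ∑ x : ι → Bool, F (fun o => o.elim true x) + ∑ x : ι → Bool, F (fun o => o.elim false x) := by
  let e : (Option ι → Bool) ≃ Bool × (ι → Bool) :=
    ⟨fun y => (y none, fun i => y (some i)), fun p o => o.elim p.1 p.2,
      fun y => by funext o; cases o <;> rfl, fun p => rfl⟩
  rw [← Equiv.sum_comp e.symm, Fintype.sum_prod_type]
  simp only [Fintype.sum_bool]
  rfl

/-- U9a. Coefficients of `oddize f` on sets not containing the new variable.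
(Split the sum over `Option ι → Bool` according to the value at `none`; each half is a sum over
`ι → Bool`; `card (Option ι) = card ι + 1`.) -/
theorem fhatG_oddize_some (f : (ι → Bool) → Bool) (S : Finset ι) :
    fhatG (oddize f) (S.map Function.Embedding.some) = (fhatG f S + fhatG (dual f) S) / 2 := by
  unfold fhatG
  rw [sum_option_cube, Fintype.card_option, pow_succ]
  simp only [oddize, Finset.prod_map, Function.Embedding.some_apply, Option.elim_some,
    Option.elim_none, if_true, Bool.false_eq_true, if_false]
  field_simp

/-- U9b. Coefficients of `oddize f` on sets containing the new variable. -/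
theorem fhatG_oddize_none (f : (ι → Bool) → Bool) (S : Finset ι) :
    fhatG (oddize f) (insert none (S.map Function.Embedding.some))
      = (fhatG f S - fhatG (dual f) S) / 2 := by
  unfold fhatG
  have hn : (none : Option ι) ∉ S.map Function.Embedding.some := by simp
  rw [sum_option_cube, Fintype.card_option, pow_succ]
  simp only [oddize, Finset.prod_insert hn, Finset.prod_map, Function.Embedding.some_apply,
    Option.elim_some, Option.elim_none, if_true, Bool.false_eq_true, if_false]
  have h1 : sgn true = 1 := by simp [sgn]
  have h2 : sgn false = -1 := by simp [sgn]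
  simp only [h1, h2, one_mul, neg_mul, mul_neg, Finset.sum_neg_distrib]
  field_simp
  ring

/-- U9c. Every subset of `Option ι` is of one of the two forms. -/
theorem option_finset_cases (T : Finset (Option ι)) :
    ∃ S : Finset ι, (T = S.map Function.Embedding.some ∧ T.card = S.card) ∨
      (T = insert none (S.map Function.Embedding.some) ∧ T.card = S.card + 1) := by
  refine ⟨Finset.eraseNone T, ?_⟩
  by_cases h : none ∈ T
  · right
    have e : T = insert none ((Finset.eraseNone T).map Function.Embedding.some) := by
      rw [Finset.map_some_eraseNone, Finset.insert_erase h]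
    refine ⟨e, ?_⟩
    conv_lhs => rw [e]
    rw [Finset.card_insert_of_notMem (by simp), Finset.card_map]
  · left
    have e : T = (Finset.eraseNone T).map Function.Embedding.some := by
      rw [Finset.map_some_eraseNone, Finset.erase_eq_of_notMem h]
    refine ⟨e, ?_⟩
    conv_lhs => rw [e]
    rw [Finset.card_map]

end Vale.Agent.P047T
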