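import Vale.Agent.Lib.P047T.Defs

namespace Vale.Agent.P047T

open Vale.Agent.P047 Finset

variable {ι κ : Type} [Fintype ι] [DecidableEq ι] [Fintype κ] [DecidableEq κ]

/-- U7a.  (Reindex the sum over the cube by `y ↦ y ∘ e`, `Equiv.arrowCongr` / `Equiv.piCongrLeft`;
`Fintype.card_congr e`.) -/
theorem fhatG_reindex (e : ι ≃ κ) (f : (ι → Bool) → Bool) (S : Finset ι) :
    fhatG (reindex e f) (S.map e.toEmbedding) = fhatG f S := by
  unfold fhatG reindex
  rw [Fintype.card_congr e]
  congr 1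
  let E : (κ → Bool) ≃ (ι → Bool) := Equiv.arrowCongr e.symm (Equiv.refl Bool)
  rw [← Equiv.sum_comp E]
  refine Finset.sum_congr rfl fun y _ => ?_
  rw [Finset.prod_map]
  rfl

/-- U7b. -/
theorem levelOneG_reindex (e : ι ≃ κ) (f : (ι → Bool) → Bool) :
    levelOneG (reindex e f) = levelOneG f := by
  unfold levelOneG
  rw [← Equiv.sum_comp e]
  refine Finset.sum_congr rfl fun i _ => ?_
  have := fhatG_reindex e f {i}
  rwa [Finset.map_singleton] at this

/-- U7c. -/
theorem degLEG_reindex (e : ι ≃ κ) (f : (ι → Bool) → Bool) (d : ℕ) (h : DegLEG f d) :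
    DegLEG (reindex e f) d := by
  intro T hT
  have hT' : T = (T.map e.symm.toEmbedding).map e.toEmbedding := by
    rw [Finset.map_map]
    ext x
    simp
  rw [hT', fhatG_reindex]
  apply h
  rwa [Finset.card_map]

/-- U7d. -/
theorem fhatG_reindex_empty (e : ι ≃ κ) (f : (ι → Bool) → Bool) :
    fhatG (reindex e f) ∅ = fhatG f ∅ := by
  have := fhatG_reindex e f ∅
  rwa [Finset.map_empty] at this

/-- U7e. Bridge to the definitions of the hand-ins. -/
theorem fhatG_eq_fhat {n : ℕ} (f : (Fin n → Bool) → Bool) (S : Finset (Fin n)) :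
    fhatG f S = fhat f S := by
  unfold fhatG fhat
  rw [Fintype.card_fin]

theorem levelOneG_eq {n : ℕ} (f : (Fin n → Bool) → Bool) : levelOneG f = levelOne f := by
  unfold levelOneG levelOne
  exact Finset.sum_congr rfl fun i _ => fhatG_eq_fhat f {i}

theorem degLEG_iff {n : ℕ} (f : (Fin n → Bool) → Bool) (d : ℕ) : DegLEG f d ↔ DegLE f d := by
  unfold DegLEG DegLE
  simp only [fhatG_eq_fhat]

end Vale.Agent.P047T
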