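import Vale.Agent.Lib.P047T.Conseq
import Vale.Agent.Lib.P047T.Reindex
import Vale.Agent.Lib.P047T.OddConseq
import Vale.Agent.Lib.P047T.Limit

namespace Vale.Agent.P047T

open Vale.Agent.P047 Finset

/-- Transport a function on an arbitrary finite index type to `Fin N`. -/
theorem exists_fin {ι : Type} [Fintype ι] [DecidableEq ι] (F : (ι → Bool) → Bool) :
    ∃ (N : ℕ) (G : (Fin N → Bool) → Bool), fhat G ∅ = fhatG F ∅ ∧ levelOne G = levelOneG F ∧
      ∀ d, DegLEG F d → DegLE G d := by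
  refine ⟨Fintype.card ι, reindex (Fintype.equivFin ι) F, ?_, ?_, ?_⟩
  · rw [← fhatG_eq_fhat, fhatG_reindex_empty]
  · rw [← levelOneG_eq, levelOneG_reindex]
  · intro d hd
    rw [← degLEG_iff]
    exact degLEG_reindex _ _ _ hd

/-- Tensor powers of a balanced function. -/
theorem exists_power {n : ℕ} (g : (Fin n → Bool) → Bool) (hg : fhat g ∅ = 0) (d : ℕ)
    (hd : DegLE g d) (k : ℕ) :
    ∃ (N : ℕ) (F : (Fin N → Bool) → Bool), fhat F ∅ = 0 ∧ DegLE F (d ^ (k + 1)) ∧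
      levelOne F = (levelOne g) ^ (k + 1) := by
  induction k with
  | zero => exact ⟨n, g, hg, by simpa using hd, by simp⟩
  | succ k ih =>
    obtain ⟨N, F, hF0, hFd, hF1⟩ := ih
    have hg' : fhatG g ∅ = 0 := by rw [fhatG_eq_fhat]; exact hg
    obtain ⟨M, G, hG0, hG1, hGd⟩ := exists_fin (comp F g)
    refine ⟨M, G, ?_, ?_, ?_⟩
    · rw [hG0, fhatG_comp_empty F g hg', fhatG_eq_fhat]; exact hF0
    · have := degLEG_comp F g hg' (d ^ (k + 1)) d ((degLEG_iff F _).2 hFd) ((degLEG_iff g _).2 hd)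
      have h2 := hGd _ this
      rwa [← pow_succ] at h2
    · rw [hG1, levelOneG_comp F g hg', levelOneG_eq, levelOneG_eq, hF1, ← pow_succ]

/-- Balanced functions: the constant can be removed. -/
theorem balanced_bound (γ C : ℝ)
    (hC : ∀ (n d : ℕ) (f : (Fin n → Bool) → Bool), 1 ≤ d → DegLE f d →
      levelOne f ≤ C * (d : ℝ) ^ γ)
    (n d : ℕ) (f : (Fin n → Bool) → Bool) (hd1 : 1 ≤ d) (hf0 : fhat f ∅ = 0) (hfd : DegLE f d) :
    levelOne f ≤ (d : ℝ) ^ γ := by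
  have hdpos : (0 : ℝ) < d := by exact_mod_cast hd1
  have hb : (0 : ℝ) < (d : ℝ) ^ γ := Real.rpow_pos_of_pos hdpos γ
  rcases lt_or_ge (levelOne f) 0 with hneg | hnn
  · linarith
  · apply le_of_pow_le (levelOne f) ((d : ℝ) ^ γ) C hnn hb
    intro k
    obtain ⟨N, F, _, hFd, hF1⟩ := exists_power f hf0 d hfd k
    have h1 : 1 ≤ d ^ (k + 1) := Nat.one_le_pow _ _ hd1
    have := hC N (d ^ (k + 1)) F h1 hFd
    rw [hF1] at this
    have e : (((d ^ (k + 1) : ℕ) : ℝ)) ^ γ = ((d : ℝ) ^ γ) ^ (k + 1) := by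
      push_cast
      rw [← Real.rpow_natCast ((d : ℝ) ^ γ) (k + 1), ← Real.rpow_mul hdpos.le,
        ← Real.rpow_natCast (d : ℝ) (k + 1), ← Real.rpow_mul hdpos.le, mul_comm]
    rwa [e] at this

/-- All functions: `L1(f) + fhat(∅) ≤ (d+1)^γ`. -/
theorem general_bound_aux (γ C : ℝ)
    (hC : ∀ (n d : ℕ) (f : (Fin n → Bool) → Bool), 1 ≤ d → DegLE f d →
      levelOne f ≤ C * (d : ℝ) ^ γ)
    (n d : ℕ) (f : (Fin n → Bool) → Bool) (hfd : DegLE f d) :
    levelOne f + fhat f ∅ ≤ ((d : ℝ) + 1) ^ γ := by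
  obtain ⟨M, G, hG0, hG1, hGd⟩ := exists_fin (oddize f)
  have h := balanced_bound γ C hC M (d + 1) G (by omega)
    (by rw [hG0, fhatG_oddize_empty]) (hGd _ (degLEG_oddize f d ((degLEG_iff f d).2 hfd)))
  rw [hG1, levelOneG_oddize, levelOneG_eq, fhatG_eq_fhat] at h
  push_cast at h
  exact h

theorem general_bound (γ C : ℝ)
    (hC : ∀ (n d : ℕ) (f : (Fin n → Bool) → Bool), 1 ≤ d → DegLE f d →
      levelOne f ≤ C * (d : ℝ) ^ γ)
    (n d : ℕ) (f : (Fin n → Bool) → Bool) (hfd : DegLE f d) :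
    levelOne f + |fhat f ∅| ≤ ((d : ℝ) + 1) ^ γ := by
  have h1 := general_bound_aux γ C hC n d f hfd
  have h2 := general_bound_aux γ C hC n d (dual f)
    ((degLEG_iff _ d).1 (degLEG_dual f d ((degLEG_iff f d).2 hfd)))
  rw [← levelOneG_eq, levelOneG_dual, levelOneG_eq, ← fhatG_eq_fhat, fhatG_dual_empty,
    fhatG_eq_fhat] at h2
  rcases abs_cases (fhat f ∅) with ⟨h, _⟩ | ⟨h, _⟩ <;> rw [h] <;> linarith

end Vale.Agent.P047T
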